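import Vale.Agent.P066.Win.Gens

/-!
Reduction of elementary positivity to one claim about a basis indexed by compositions: it is
enough that pushing sends basis states to basis states and that popping is positive.
-/

open scoped BigOperators
open MvPolynomial (X esymm)

namespace Vale.Agent.P066.Win

/-- the states of degree `n` in a family indexed by compositions -/
def BasisGen (b : ∀ k, (Fin k → ℕ) → St k) (k n : ℕ) (F : St k) : Prop :=
  ∃ a : Fin k → ℕ, ∑ i, a i = n ∧ F = b k a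

/-- `b 0 = 1`, `b (0, g) = push (b g)` and positivity of `pop (b a)` for windows of at most `B`
vertices give the conjecture for all graphs with `h i < i + B`. -/
theorem epos_of_basis (B : ℕ) (b : ∀ k, (Fin k → ℕ) → St k)
    (hone : ∀ a : Fin 0 → ℕ, b 0 a = fun _ _ => 1)
    (hpush : ∀ k (g : Fin k → ℕ), k + 1 ≤ B → b (k + 1) (Fin.cons 0 g) = push (b k g))
    (hpop : ∀ k (a : Fin (k + 1) → ℕ), k + 1 ≤ B →
      WSpan (BasisGen b k) ((∑ i, a i) + 1) (pop (b (k + 1) a)))
    (n : ℕ) (h : ℕ → ℕ) (hmono : ∀ i j, i ≤ j → j < n → h i ≤ h j)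
    (hlow : ∀ i, i < n → i ≤ h i) (hwidth : ∀ i, i < n → h i < i + B) :
    ∃ c : n.Partition → Polynomial ℕ, ∀ N : ℕ,
      (∑ f ∈ Finset.univ.filter (fun f : Fin n → Fin N =>
          ∀ a b : Fin n, a < b → (b : ℕ) ≤ h a → f a ≠ f b),
        MvPolynomial.C ((Polynomial.X : Polynomial ℤ) ^ (Finset.univ.filter
            (fun p : Fin n × Fin n => p.1 < p.2 ∧ (p.2 : ℕ) ≤ h p.1 ∧ f p.1 < f p.2)).card) *
          ∏ a, (MvPolynomial.X (f a) : MvPolynomial (Fin N) (Polynomial ℤ))) =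
      ∑ p : n.Partition, MvPolynomial.C ((c p).map (Nat.castRingHom ℤ)) *
        MvPolynomial.esymmPart (Fin N) (Polynomial ℤ) p := by
  refine epos_of_closed B (BasisGen b) (Span.gen ⟨Fin.elim0, by simp, (hone _).symm⟩) ?_ ?_ ?_
    n h hmono hlow hwidth
  · rintro k m _ hk ⟨g, hg, rfl⟩
    refine Span.gen ⟨Fin.cons 0 g, ?_, (hpush k g hk).symm⟩
    rw [Fin.sum_cons, zero_add, hg]
  · rintro k m _ hk ⟨a, ha, rfl⟩
    exact ha ▸ hpop k a hk
  · rintro m _ ⟨a, ha, rfl⟩
    obtain rfl : m = 0 := by simpa using ha.symm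
    rw [hone]
    exact Pos.one

end Vale.Agent.P066.Win
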