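import Vale.Agent.P066.Win.Reduce

/-!
A finite-type positive basis of window states that is closed under push and pop gives positivity
of all reachable states.
-/

open scoped BigOperators
open MvPolynomial (X esymm)

namespace Vale.Agent.P066.Win

/-- cone over `N[q]` and products of elementary functions spanned by generators of window states -/
abbrev WSpan {k : ℕ} (G : ℕ → St k → Prop) : ℕ → St k → Prop :=
  Span (α := fun N => Fin k → Fin N) G

lemma WSpan.push {k : ℕ} {G : ℕ → St k → Prop} {G' : ℕ → St (k + 1) → Prop}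
    (hg : ∀ n F, G n F → WSpan G' n (Win.push F)) {n : ℕ} {F : St k} (h : WSpan G n F) :
    WSpan G' n (Win.push F) := by
  induction h with
  | gen hF => exact hg _ _ hF
  | zero n => exact (Span.zero n).congr fun N c => by simp [Win.push]
  | add _ _ ih1 ih2 => exact (ih1.add ih2).congr fun N c => by simp [Win.push, mul_add]
  | mul hP _ ih =>
      exact (Span.mul hP ih).congr fun N c => by simp only [Win.push]; ring

lemma WSpan.pop {k : ℕ} {G : ℕ → St (k + 1) → Prop} {G' : ℕ → St k → Prop}
    (hg : ∀ n F, G n F → WSpan G' (n + 1) (Win.pop F)) {n : ℕ} {F : St (k + 1)}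
    (h : WSpan G n F) : WSpan G' (n + 1) (Win.pop F) := by
  induction h with
  | gen hF => exact hg _ _ hF
  | zero n => exact (Span.zero (n + 1)).congr fun N c => by simp [Win.pop]
  | add _ _ ih1 ih2 =>
      exact (ih1.add ih2).congr fun N c => by simp [Win.pop, mul_add, Finset.sum_add_distrib]
  | @mul m n P F hP _ ih =>
      exact ((Span.mul hP ih).deg (n' := m + n + 1) (by omega)).congr fun N c => by
        simp only [Win.pop, Finset.mul_sum]
        exact Finset.sum_congr rfl fun a _ => by ring

/-- generators `G k` closed under push and pop, positive at `k = 0`, and containing the empty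
state make every reachable state with empty window positive -/
theorem pos_of_closed (B : ℕ) (G : ∀ k, ℕ → St k → Prop)
    (h0 : WSpan (G 0) 0 (fun _ _ => 1))
    (hpush : ∀ k n F, k + 1 ≤ B → G k n F → WSpan (G (k + 1)) n (Win.push F))
    (hpop : ∀ k n F, k + 1 ≤ B → G (k + 1) n F → WSpan (G k) (n + 1) (Win.pop F))
    (hpos : ∀ n F, G 0 n F → Pos n (fun N => F N Fin.elim0))
    (n : ℕ) (F : St 0) (h : Reach B 0 n F) : Pos n (fun N => F N Fin.elim0) := by
  have hall : ∀ (k n : ℕ) (F : St k), Reach B k n F → WSpan (G k) n F := by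
    intro k n F h
    induction h with
    | empty => exact h0
    | push _ hk ih => exact ih.push fun n F hF => hpush _ n F hk hF
    | pop h' ih => exact ih.pop fun n F hF => hpop _ n F h'.le hF
  have h1 := hall 0 n F h
  clear h
  induction h1 with
  | gen hF => exact hpos _ _ hF
  | zero n => exact Pos.zero n
  | add _ _ ih1 ih2 => exact ih1.add ih2
  | mul hP _ ih => exact Pos.mul hP ih

/-- Composition with the reduction: closed generators in all window sizes prove the conjecture
for all graphs with `h i < i + B`. -/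
theorem epos_of_closed (B : ℕ) (G : ∀ k, ℕ → St k → Prop)
    (h0 : WSpan (G 0) 0 (fun _ _ => 1))
    (hpush : ∀ k n F, k + 1 ≤ B → G k n F → WSpan (G (k + 1)) n (Win.push F))
    (hpop : ∀ k n F, k + 1 ≤ B → G (k + 1) n F → WSpan (G k) (n + 1) (Win.pop F))
    (hpos : ∀ n F, G 0 n F → Pos n (fun N => F N Fin.elim0))
    (n : ℕ) (h : ℕ → ℕ) (hmono : ∀ i j, i ≤ j → j < n → h i ≤ h j)
    (hlow : ∀ i, i < n → i ≤ h i) (hwidth : ∀ i, i < n → h i < i + B) :
    ∃ c : n.Partition → Polynomial ℕ, ∀ N : ℕ,
      (∑ f ∈ Finset.univ.filter (fun f : Fin n → Fin N =>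
          ∀ a b : Fin n, a < b → (b : ℕ) ≤ h a → f a ≠ f b),
        MvPolynomial.C ((Polynomial.X : Polynomial ℤ) ^ (Finset.univ.filter
            (fun p : Fin n × Fin n => p.1 < p.2 ∧ (p.2 : ℕ) ≤ h p.1 ∧ f p.1 < f p.2)).card) *
          ∏ a, (MvPolynomial.X (f a) : MvPolynomial (Fin N) (Polynomial ℤ))) =
      ∑ p : n.Partition, MvPolynomial.C ((c p).map (Nat.castRingHom ℤ)) *
        MvPolynomial.esymmPart (Fin N) (Polynomial ℤ) p :=
  epos_of_reach B (pos_of_closed B G h0 hpush hpop hpos) n h hmono hlow hwidth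

end Vale.Agent.P066.Win
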