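import Vale.Agent.P066.Win.Gens

/-!
Algebraic identities between push, pop and the Hecke operator on the two oldest vertices of a
window.
-/

open scoped BigOperators
open MvPolynomial (X esymm)

namespace Vale.Agent.P066.Win

variable {N : ℕ}

/-- states supported on injective colourings of the window -/
def Proper {k : ℕ} (F : St k) : Prop := ∀ N c, ¬Function.Injective c → F N c = 0

/-- `pop ∘ push - push ∘ pop` -/
noncomputable def comm {k : ℕ} (F : St (k + 1)) : St (k + 1) := fun N c =>
  pop (push F) N c - push (pop F) N c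

/-- exchange of the colours of the two oldest vertices -/
def swapTop {k : ℕ} (c : Fin (k + 2) → Fin N) : Fin (k + 2) → Fin N :=
  Fin.cons (c 1) (Fin.cons (c 0) (Fin.tail (Fin.tail c)))

/-- Hecke operator on the two oldest vertices -/
noncomputable def hT {k : ℕ} (F : St (k + 2)) : St (k + 2) := fun N c =>
  w (c 0) (c 1) * F N (swapTop c) + (w (c 0) (c 1) - qq) * F N c

lemma swapTop_cons {k : ℕ} (b a : Fin N) (c : Fin k → Fin N) :
    swapTop (Fin.cons b (Fin.cons a c)) = Fin.cons a (Fin.cons b c) := by
  simp [swapTop]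

lemma hT_cons {k : ℕ} (F : St (k + 2)) (b a : Fin N) (c : Fin k → Fin N) :
    hT F N (Fin.cons b (Fin.cons a c)) = w b a * F N (Fin.cons a (Fin.cons b c)) +
      (w b a - qq) * F N (Fin.cons b (Fin.cons a c)) := by
  simp [hT, swapTop_cons]

lemma Proper.cons_self {k : ℕ} {F : St (k + 2)} (h : Proper F) (a : Fin N) (c : Fin k → Fin N) :
    F N (Fin.cons a (Fin.cons a c)) = 0 := by
  refine h N _ fun hi => ?_
  have := @hi 0 1 (by simp)
  simp at this

lemma Proper.one : Proper (k := 0) (fun _ _ => 1) :=
  fun _ _ h => absurd (fun i => Fin.elim0 i) h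

lemma Proper.push {k : ℕ} {F : St k} (h : Proper F) : Proper (Win.push F) := by
  intro N c hc
  by_cases h1 : Function.Injective (Fin.init c)
  · obtain ⟨i, hi⟩ : ∃ i : Fin k, c i.castSucc = c (Fin.last k) := by
      by_contra h2
      push Not at h2
      refine hc fun i j e => ?_
      induction i using Fin.lastCases with
      | last =>
          induction j using Fin.lastCases with
          | last => rfl
          | cast j => exact absurd e.symm (h2 j)
      | cast i =>
          induction j using Fin.lastCases with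
          | last => exact absurd e (h2 i)
          | cast j => exact congrArg _ (h1 e)
    rw [Win.push, Finset.prod_eq_zero (Finset.mem_univ i) (by rw [hi, w_self]), zero_mul]
  · rw [Win.push, h N _ h1, mul_zero]

lemma Proper.pop {k : ℕ} {F : St (k + 1)} (h : Proper F) : Proper (Win.pop F) := by
  intro N c hc
  refine Finset.sum_eq_zero fun a _ => ?_
  rw [h N _ fun hi => hc fun i j e => ?_, mul_zero]
  exact Fin.succ_injective _ (hi (by simpa using e))

lemma push_cons {k : ℕ} (G : St (k + 1)) (b : Fin N) (x : Fin (k + 1) → Fin N) :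
    push G N (Fin.cons b x) = w b (x (Fin.last k)) *
      ((∏ i : Fin k, w (x i.castSucc) (x (Fin.last k))) * G N (Fin.cons b (Fin.init x))) := by
  rw [push, Fin.prod_univ_succ]
  have e : Fin.init (Fin.cons b x : Fin (k + 2) → Fin N) = Fin.cons b (Fin.init x) := by
    funext i
    refine Fin.cases ?_ (fun j => ?_) i
    · simp [Fin.init]
    · simp [Fin.init]
  simp only [e, ← Fin.succ_last, Fin.cons_succ, Fin.castSucc_zero, Fin.cons_zero,
    ← Fin.succ_castSucc]
  ring

lemma comm_apply {k : ℕ} (G : St (k + 1)) (x : Fin (k + 1) → Fin N) :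
    comm G N x = (∏ i : Fin k, w (x i.castSucc) (x (Fin.last k))) *
      ∑ b, X b * ((w b (x (Fin.last k)) - 1) * G N (Fin.cons b (Fin.init x))) := by
  simp only [comm, pop, push_cons]
  simp only [push, pop]
  rw [Finset.mul_sum, Finset.mul_sum, ← Finset.sum_sub_distrib]
  refine Finset.sum_congr rfl fun b _ => ?_
  ring

/-- `pop ∘ pop` is invariant under the Hecke operator -/
theorem pop_pop_hT {k : ℕ} {F : St (k + 2)} (hF : Proper F) (N : ℕ) (c : Fin k → Fin N) :
    pop (pop (hT F)) N c = pop (pop F) N c := by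
  simp only [pop, hT_cons, Finset.mul_sum, mul_add, Finset.sum_add_distrib]
  rw [Finset.sum_comm, ← Finset.sum_add_distrib]
  refine Finset.sum_congr rfl fun a _ => ?_
  rw [← Finset.sum_add_distrib]
  refine Finset.sum_congr rfl fun b _ => ?_
  rcases lt_trichotomy a b with h | rfl | h
  · rw [w_of_lt h, w_of_gt h]; ring
  · rw [hF.cons_self]; ring
  · rw [w_of_gt h, w_of_lt h]; ring

/-- the quadratic relation -/
theorem hT_hT {k : ℕ} {F : St (k + 2)} (hF : Proper F) (N : ℕ) (c : Fin (k + 2) → Fin N) :
    hT (hT F) N c = (1 - qq) * hT F N c + qq * F N c := by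
  obtain ⟨b, x, rfl⟩ : ∃ b x, c = Fin.cons b x := ⟨c 0, Fin.tail c, (Fin.cons_self_tail c).symm⟩
  obtain ⟨a, y, rfl⟩ : ∃ a y, x = Fin.cons a y := ⟨x 0, Fin.tail x, (Fin.cons_self_tail x).symm⟩
  simp only [hT_cons]
  rcases lt_trichotomy b a with h | rfl | h
  · rw [w_of_lt h, w_of_gt h]; ring
  · rw [hF.cons_self]; ring
  · rw [w_of_gt h, w_of_lt h]; ring

/-- `pop ∘ comm ∘ hT = q • comm ∘ pop` -/
theorem pop_comm_hT {k : ℕ} {F : St (k + 2)} (hF : Proper F) (N : ℕ) (c : Fin (k + 1) → Fin N) :
    pop (comm (hT F)) N c = qq * comm (pop F) N c := by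
  obtain ⟨x, d, rfl⟩ : ∃ x d, c = Fin.snoc x d :=
    ⟨Fin.init c, c (Fin.last k), (Fin.snoc_init_self c).symm⟩
  have e : ∀ a : Fin N, Fin.init (Fin.cons a (Fin.snoc x d : Fin (k + 1) → Fin N) :
      Fin (k + 2) → Fin N) = Fin.cons a x := fun a => by
    rw [Fin.cons_snoc_eq_snoc_cons, Fin.init_snoc]
  simp only [pop, comm_apply, Fin.prod_univ_succ, e, ← Fin.succ_last, Fin.cons_succ,
    Fin.castSucc_zero, Fin.cons_zero, ← Fin.succ_castSucc, Fin.snoc_last, Fin.snoc_castSucc,
    Fin.init_snoc, hT_cons, Finset.mul_sum, mul_add, Finset.sum_add_distrib]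
  rw [Finset.sum_comm, ← Finset.sum_add_distrib]
  refine Finset.sum_congr rfl fun a _ => ?_
  rw [← Finset.sum_add_distrib]
  refine Finset.sum_congr rfl fun b _ => ?_
  rcases lt_trichotomy a b with h | rfl | h
  · rcases lt_trichotomy a d with h1 | h1 | h1 <;> rcases lt_trichotomy b d with h2 | h2 | h2 <;>
      first
        | omega
        | (simp only [w_self, w_of_lt, w_of_gt, *]; ring)
  · simp only [hF.cons_self]; ring
  · rcases lt_trichotomy a d with h1 | h1 | h1 <;> rcases lt_trichotomy b d with h2 | h2 | h2 <;>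
      first
        | omega
        | (simp only [w_self, w_of_lt, w_of_gt, *]; ring)

/-- the form used in the recursion for the basis: `pop` of a rotated invariant state -/
theorem pop_rot {k : ℕ} {F : St (k + 2)} (hF : Proper F) (hinv : ∀ N c, hT F N c = F N c)
    (R : St (k + 1)) (N : ℕ) (c : Fin (k + 1) → Fin N) :
    pop (fun M x => comm F M x + push R M x) N c = qq * comm (pop F) N c + pop (push R) N c := by
  have e : hT F = F := funext fun M => funext (hinv M)
  rw [← pop_comm_hT hF, e]
  simp only [pop, mul_add, Finset.sum_add_distrib]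

end Vale.Agent.P066.Win
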