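import Vale.Agent.P066.Win.State
import Vale.Agent.P066.Bridge

/-!
Every natural unit interval graph is computed by pushes and pops of window states, so positivity
of all reachable states with an empty window gives elementary positivity of all these graphs.
-/

open scoped BigOperators
open MvPolynomial (X esymm)

namespace Vale.Agent.P066.Win

variable {N : ℕ}

/-- `F` is the state of the prefix of `m` vertices with window `[a, a + k)`, `a + k = m`. -/
def IsState (lo : ℕ → ℕ) (a k : ℕ) (F : St k) : Prop :=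
  ∀ N (g : (Fin k → Fin N) → A N),
    pre lo (a + k) (fun f => g (fun i => f (Fin.natAdd a i))) =
      ∑ c, (∏ i, X (c i)) * g c * F N c

lemma isState_pop {lo : ℕ → ℕ} {a k : ℕ} {F : St (k + 1)} (h : IsState lo a (k + 1) F)
    (N : ℕ) (g : (Fin k → Fin N) → A N) :
    pre lo (a + (k + 1)) (fun f => g (fun i => f (Fin.natAdd a i.succ))) =
      ∑ c, (∏ i, X (c i)) * g c * pop F N c := by
  refine Eq.trans (h N (fun c => g (Fin.tail c))) ?_
  rw [← (Fin.consEquiv (fun _ : Fin (k + 1) => Fin N)).sum_comp,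
    Fintype.sum_prod_type, Finset.sum_comm]
  refine Finset.sum_congr rfl fun c _ => ?_
  rw [pop, Finset.mul_sum]
  refine Finset.sum_congr rfl fun x _ => ?_
  simp only [Fin.consEquiv, Equiv.coe_fn_mk, Fin.tail_cons, Fin.prod_univ_succ, Fin.cons_zero,
    Fin.cons_succ]
  ring

lemma pre_cast (lo : ℕ → ℕ) {m m' : ℕ} (e : m = m') (g : (Fin m' → Fin N) → A N) :
    pre lo m' g = pre lo m (fun f => g (fun i => f (Fin.cast e.symm i))) := by
  subst e; rfl

lemma isState_pop' {lo : ℕ → ℕ} {a k : ℕ} {F : St (k + 1)} (h : IsState lo a (k + 1) F) :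
    IsState lo (a + 1) k (pop F) := by
  intro N g
  rw [pre_cast lo (show a + (k + 1) = a + 1 + k by omega), ← isState_pop h N g]
  refine pre_congr lo _ fun f => congrArg g (funext fun i => congrArg f (Fin.ext ?_))
  simp only [Fin.val_cast, Fin.val_natAdd, Fin.val_succ]
  omega

lemma isState_push {lo : ℕ → ℕ} {a k : ℕ} {F : St k} (h : IsState lo a k F)
    (hlo : lo (a + k) = a) : IsState lo a (k + 1) (push F) := by
  intro N g
  show pre lo (a + k + 1) _ = _
  have hw : ∀ (f : Fin (a + k) → Fin N) (d : Fin N),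
      newW lo f d = ∏ i : Fin k, w (f (Fin.natAdd a i)) d := by
    intro f d
    rw [newW, Fin.prod_univ_add, Finset.prod_eq_one, one_mul]
    · refine Finset.prod_congr rfl fun i _ => if_pos ⟨?_, ?_⟩
      · simp only [Fin.val_natAdd]; omega
      · simp only [Fin.val_natAdd, hlo]; omega
    · intro i _
      rw [if_neg]
      rintro ⟨-, h'⟩
      simp only [Fin.val_castAdd, hlo] at h'
      omega
  have hs : ∀ (f : Fin (a + k) → Fin N) (d : Fin N),
      (fun i : Fin (k + 1) => (Fin.snoc f d : Fin (a + k + 1) → Fin N) (Fin.natAdd a i)) =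
        Fin.snoc (fun i => f (Fin.natAdd a i)) d := by
    intro f d
    funext i
    refine Fin.lastCases ?_ (fun j => ?_) i
    · rw [show (Fin.natAdd a (Fin.last k) : Fin (a + k + 1)) = Fin.last (a + k) from Fin.ext rfl,
        Fin.snoc_last, Fin.snoc_last]
    · rw [show (Fin.natAdd a j.castSucc : Fin (a + k + 1)) = (Fin.natAdd a j).castSucc
        from Fin.ext rfl, Fin.snoc_castSucc, Fin.snoc_castSucc]
  rw [pre_succ, pre_congr lo (a + k)
    (g' := fun f => (fun c : Fin k → Fin N =>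
      ∑ d, (∏ i, w (c i) d) * X d * g (Fin.snoc c d)) (fun i => f (Fin.natAdd a i)))
    (fun f => Finset.sum_congr rfl fun d _ => by simp only [hw, hs]),
    h N (fun c => ∑ d, (∏ i, w (c i) d) * X d * g (Fin.snoc c d)),
    ← (Fin.snocEquiv (fun _ : Fin (k + 1) => Fin N)).sum_comp, Fintype.sum_prod_type,
    Finset.sum_comm]
  refine Finset.sum_congr rfl fun c _ => ?_
  rw [Finset.mul_sum, Finset.sum_mul]
  refine Finset.sum_congr rfl fun d _ => ?_
  simp only [Fin.snocEquiv, Equiv.coe_fn_mk, push, Fin.prod_univ_castSucc, Fin.snoc_castSucc,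
    Fin.snoc_last, Fin.init_snoc]
  ring

/-- pop until the window starts at `a'` -/
lemma exists_pop {lo : ℕ → ℕ} {B : ℕ} : ∀ (d a k : ℕ) (F : St (k + d)),
    Reach B (k + d) a F → IsState lo a (k + d) F →
    ∃ G : St k, Reach B k (a + d) G ∧ IsState lo (a + d) k G
  | 0, a, k, F, h1, h2 => ⟨F, h1, h2⟩
  | d + 1, a, k, F, h1, h2 => by
    obtain ⟨G, g1, g2⟩ := exists_pop d (a + 1) k (pop F) h1.pop (isState_pop' h2)
    exact ⟨G, g1.deg (by omega), by rwa [show a + (d + 1) = a + 1 + d by omega]⟩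

lemma exists_state (lo : ℕ → ℕ) (B n : ℕ) (h1 : ∀ j, j < n → lo j ≤ j)
    (h2 : ∀ j, j < n → j + 1 ≤ lo j + B)
    (hmono : ∀ j, j + 1 < n → lo j ≤ lo (j + 1)) :
    ∀ m, m ≤ n → ∃ (a k : ℕ) (F : St k), a + k = m ∧ (m < n → a ≤ lo m) ∧
      Reach B k a F ∧ IsState lo a k F := by
  intro m
  induction m with
  | zero =>
    intro _
    refine ⟨0, 0, fun _ _ => 1, rfl, fun _ => Nat.zero_le _, Reach.empty, fun N g => ?_⟩
    simp only [Finset.univ_unique, Finset.sum_singleton, pre, wt, mon]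
    simp
  | succ m ih =>
    intro hm
    obtain ⟨a, k, F, hak, hle, hR, hS⟩ := ih (by omega)
    have ha := hle (by omega)
    have hlm := h1 m (by omega)
    obtain ⟨d, hd⟩ : ∃ d, lo m = a + d := ⟨lo m - a, by omega⟩
    obtain ⟨j, rfl⟩ : ∃ j, k = j + d := ⟨k - d, by omega⟩
    obtain ⟨G, g1, g2⟩ := exists_pop d a j F hR hS
    have hB := h2 m (by omega)
    refine ⟨a + d, j + 1, push G, by omega, fun hlt => hd ▸ hmono m hlt, g1.push (by omega),
      isState_push g2 ?_⟩
    rw [show a + d + j = m by omega]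
    exact hd

/-- The chromatic quasisymmetric function is a reachable state with an empty window. -/
theorem chi_reach (lo : ℕ → ℕ) (B n : ℕ) (h1 : ∀ j, j < n → lo j ≤ j)
    (h2 : ∀ j, j < n → j + 1 ≤ lo j + B)
    (hmono : ∀ j, j + 1 < n → lo j ≤ lo (j + 1)) :
    ∃ F : St 0, Reach B 0 n F ∧ ∀ N, chi n lo N = F N Fin.elim0 := by
  obtain ⟨a, k, F, hak, -, hR, hS⟩ := exists_state lo B n h1 h2 hmono n le_rfl
  have hk : k = 0 + k := (Nat.zero_add k).symm
  obtain ⟨F', hR', hS'⟩ : ∃ F' : St (0 + k), Reach B (0 + k) a F' ∧ IsState lo a (0 + k) F' := by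
    rw [Nat.zero_add]; exact ⟨F, hR, hS⟩
  obtain ⟨G, g1, g2⟩ := exists_pop k a 0 F' hR' hS'
  subst hak
  refine ⟨G, g1, fun N => ?_⟩
  have h := g2 N (fun _ => 1)
  simp only [Finset.univ_unique, Finset.sum_singleton, Finset.prod_empty, Finset.univ_eq_empty,
    mul_one, one_mul] at h
  rw [Subsingleton.elim (default : Fin 0 → Fin N) Fin.elim0] at h
  rw [← h]
  simp [pre, chi]

lemma wt_eq {n : ℕ} (h : ℕ → ℕ) (lo : ℕ → ℕ)
    (hlo : ∀ a b : Fin n, adj lo a b ↔ (a < b ∧ (b : ℕ) ≤ h a))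
    (f : Fin n → Fin N) :
    wt lo f = if (∀ a b : Fin n, a < b → (b : ℕ) ≤ h a → f a ≠ f b) then
      (Polynomial.X : Polynomial ℤ) ^ (Finset.univ.filter
        (fun p : Fin n × Fin n => p.1 < p.2 ∧ (p.2 : ℕ) ≤ h p.1 ∧ f p.1 < f p.2)).card
      else 0 := by
  classical
  split
  next hprop =>
    rw [← Finset.prod_const, Finset.prod_filter, wt]
    refine Finset.prod_congr rfl fun p _ => ?_
    by_cases hadj : adj lo p.1 p.2
    · have h' := (hlo p.1 p.2).1 hadj
      have hne := hprop p.1 p.2 h'.1 h'.2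
      rw [pairWt, if_pos hadj, psi]
      by_cases hlt : f p.1 < f p.2
      · rw [if_pos hlt, if_pos ⟨h'.1, h'.2, hlt⟩]; rfl
      · rw [if_neg hlt, if_neg hne, if_neg fun hh => hlt hh.2.2]
    · rw [pairWt, if_neg hadj, if_neg fun hh => hadj ((hlo p.1 p.2).2 ⟨hh.1, hh.2.1⟩)]
  next hprop =>
    push Not at hprop
    obtain ⟨a, b, hab, hb, he⟩ := hprop
    refine Finset.prod_eq_zero (Finset.mem_univ (a, b)) ?_
    rw [pairWt, if_pos ((hlo a b).2 ⟨hab, hb⟩), psi]
    simp [he]

/-- If all reachable states with an empty window and windows of at most `B` vertices are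
positive, then every natural unit interval graph with `h i < i + B` is `N[q]`-positive in
elementary symmetric functions. -/
theorem epos_of_reach (B : ℕ)
    (hP : ∀ (n : ℕ) (F : St 0), Reach B 0 n F → Pos n (fun N => F N Fin.elim0))
    (n : ℕ) (h : ℕ → ℕ) (hmono : ∀ i j, i ≤ j → j < n → h i ≤ h j)
    (hlow : ∀ i, i < n → i ≤ h i) (hwidth : ∀ i, i < n → h i < i + B) :
    ∃ c : n.Partition → Polynomial ℕ, ∀ N : ℕ,
      (∑ f ∈ Finset.univ.filter (fun f : Fin n → Fin N =>
          ∀ a b : Fin n, a < b → (b : ℕ) ≤ h a → f a ≠ f b),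
        MvPolynomial.C ((Polynomial.X : Polynomial ℤ) ^ (Finset.univ.filter
            (fun p : Fin n × Fin n => p.1 < p.2 ∧ (p.2 : ℕ) ≤ h p.1 ∧ f p.1 < f p.2)).card) *
          ∏ a, (MvPolynomial.X (f a) : MvPolynomial (Fin N) (Polynomial ℤ))) =
      ∑ p : n.Partition, MvPolynomial.C ((c p).map (Nat.castRingHom ℤ)) *
        MvPolynomial.esymmPart (Fin N) (Polynomial ℤ) p := by
  classical
  let lo : ℕ → ℕ := fun j =>
    if hj : j < n then Nat.find (⟨j, hlow j hj⟩ : ∃ i, j ≤ h i) else 0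
  have hlo1 : ∀ j, j < n → lo j ≤ j := by
    intro j hj
    simp only [lo, dif_pos hj]
    exact Nat.find_min' _ (hlow j hj)
  have hspec : ∀ j, j < n → j ≤ h (lo j) := by
    intro j hj
    simp only [lo, dif_pos hj]
    exact Nat.find_spec (⟨j, hlow j hj⟩ : ∃ i, j ≤ h i)
  have hmin : ∀ j i, j < n → j ≤ h i → lo j ≤ i := by
    intro j i hj hi
    simp only [lo, dif_pos hj]
    exact Nat.find_min' _ hi
  have hlo2 : ∀ j, j < n → j + 1 ≤ lo j + B := fun j hj =>
    lt_of_le_of_lt (hspec j hj) (hwidth _ (lt_of_le_of_lt (hlo1 j hj) hj))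
  have hlomono : ∀ j, j + 1 < n → lo j ≤ lo (j + 1) := fun j hj =>
    hmin j _ (by omega) (le_trans (Nat.le_succ j) (hspec (j + 1) hj))
  have hadj : ∀ a b : Fin n, adj lo a b ↔ (a < b ∧ (b : ℕ) ≤ h a) := by
    intro a b
    constructor
    · rintro ⟨hab, hl⟩
      exact ⟨hab, le_trans (hspec b b.isLt) (hmono _ _ hl a.isLt)⟩
    · rintro ⟨hab, hb⟩
      exact ⟨hab, hmin b a b.isLt hb⟩
  obtain ⟨F, hR, hF⟩ := chi_reach lo B n hlo1 hlo2 hlomono
  obtain ⟨c, hc⟩ := ((hP n F hR).congr fun N => (hF N).symm).to_partition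
  refine ⟨c, fun N => ?_⟩
  rw [← hc N, chi, Finset.sum_filter]
  refine Finset.sum_congr rfl fun f _ => ?_
  rw [wt_eq h lo hadj f]
  split
  · rfl
  · simp

end Vale.Agent.P066.Win
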