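import Vale.Agent.P066.States

/-!
Window states: the state of a prefix of the graph as a function of the colours of its last `k`
vertices, and the two elementary operations on them.
-/

open scoped BigOperators
open MvPolynomial (X esymm)

namespace Vale.Agent.P066.Win

/-- families of functions of the colours of the last `k` vertices -/
abbrev St (k : ℕ) := (N : ℕ) → (Fin k → Fin N) → A N

/-- add a vertex adjacent to the whole window -/
noncomputable def push {k : ℕ} (F : St k) : St (k + 1) := fun N c =>
  (∏ i : Fin k, w (c i.castSucc) (c (Fin.last k))) * F N (Fin.init c)

/-- sum over the colour of the oldest vertex of the window -/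
noncomputable def pop {k : ℕ} (F : St (k + 1)) : St k := fun N c =>
  ∑ a, X a * F N (Fin.cons a c)

/-- states generated from the empty one by pushes and pops; windows have at most `B` vertices
and the second index is the degree. -/
inductive Reach (B : ℕ) : (k : ℕ) → ℕ → St k → Prop
  | empty : Reach B 0 0 (fun _ _ => 1)
  | push {k n : ℕ} {F : St k} : Reach B k n F → k + 1 ≤ B → Reach B (k + 1) n (Win.push F)
  | pop {k n : ℕ} {F : St (k + 1)} : Reach B (k + 1) n F → Reach B k (n + 1) (Win.pop F)

lemma Reach.le {B k n : ℕ} {F : St k} (h : Reach B k n F) : k ≤ B := by
  induction h with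
  | empty => exact Nat.zero_le _
  | push _ hk _ => exact hk
  | pop _ ih => omega

lemma Reach.deg {B k n n' : ℕ} {F : St k} (h : Reach B k n F) (e : n = n') : Reach B k n' F :=
  e ▸ h

end Vale.Agent.P066.Win
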